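import Vale.Agent.P282W.Main
import Vale.Agent.P282W.Sharp
import Vale.Agent.P282A71.All
import Vale.Agent.P282A71.OfVar
import Vale.Agent.P282A7.Norm
import Vale.Agent.P282A53.ToVar

open scoped ENNReal
open AlgebraicGeometry
open Vale.Agent.P282.Gap Vale.Agent.P282Y Vale.Agent.P282W Vale.Agent.P282A71

namespace Vale.Agent.Results.P282.AAAnalytic

/-- The ordinary double point volume gap, with ordinary double points defined as the germs which
are complex analytically isomorphic to the vertex of the cone `z₀² + ⋯ + zₙ² = 0`.  Let `R` be the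
local ring of a normal complex variety of dimension `n ≥ 2` at a closed point `x` and let `ω` be a
rational section of `r K_X` (this is what `IsGerm` says).  The limit which defines the volume exists, the definitions on
birational models are consistent, affine models of the germ exist, and being an ordinary double
point can be tested on any affine model (on the zero sets or on the analytic local rings) and on the
completion.  If `ω` generates `r K_X`, the germ is klt and `x` is a singular point, then the
normalized volume is at most `2 (n - 1) ^ n`, with equality if and only if `x` is an ordinary double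
point.  There is a singular klt germ which is an ordinary double point. -/
theorem result (n : ℕ) (hn : 2 ≤ n) :
    (∀ (r : ℕ) (R : Type) [CommRing R] [IsDomain R] [IsLocalRing R] [Algebra ℂ R]
      (ω : (Fin n → Derivation ℂ (FractionRing R) (FractionRing R)) → FractionRing R),
      (IsGerm R n r ω ↔ (∃ (X : Scheme.{0}) (f : X ⟶ Spec (CommRingCat.of ℂ)) (x : X),
        IsPointOf R n f x) ∧ 0 < r ∧ IsPluriForm n r ω) ∧
      (IsGerm R n r ω → LimitExists R (FractionRing R) n ∧ Consistent R n r ω ∧
        (∃ (N : ℕ) (y : Fin N → R), IsModel y) ∧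
        (∀ (N : ℕ) (y : Fin N → R), IsModel y →
          (IsAnODP R n ↔ Biholo (locus (relations y)) (cone n)) ∧
          (IsAnODP R n ↔ AnIso (relations y) (coneIdeal n))) ∧
        (IsAnODP R n ↔ IsODP R n) ∧
        (IsKlt R n r ω → ¬ IsRegularLocalRing R →
          nvolume R n r ω ≤ 2 * ((n : ℝ≥0∞) - 1) ^ n ∧
          (nvolume R n r ω = 2 * ((n : ℝ≥0∞) - 1) ^ n ↔ IsAnODP R n)))) ∧
    ∃ (R : Type) (_ : CommRing R) (_ : IsDomain R) (_ : IsLocalRing R) (_ : Algebra ℂ R)
      (ω : (Fin n → Derivation ℂ (FractionRing R) (FractionRing R)) → FractionRing R),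
      IsGerm R n 1 ω ∧ IsKlt R n 1 ω ∧ ¬ IsRegularLocalRing R ∧ IsAnODP R n := by
  refine ⟨fun r R _ _ _ _ ω => ⟨⟨fun h => ⟨?_, h.index_pos, h.form⟩, ?_⟩, fun h => ?_⟩, ?_⟩
  · obtain ⟨A, h1, h2, m, _, h3⟩ := norm7 R h.essFiniteType h.normal h.residue
    exact tovar R n A h1 h2 m h3 h.dim
  · rintro ⟨⟨X, f, x, h⟩, h1, h2⟩
    obtain ⟨h3, h4, h5, h6⟩ := ofvar R n X f x h
    exact ⟨h3, h4, h5, h6, h1, h2⟩
  · obtain ⟨h1, h2, h3⟩ := stDICT R (FractionRing R) n r ω h
    have h4 := anODP_iff hn h.essFiniteType h.residue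
    refine ⟨limitExists (by omega) h, h1, model14 R h.essFiniteType h.residue,
      fun _ _ hy => tfae hn h.essFiniteType h.residue hy, h4, fun hk hs => ?_⟩
    rw [nvolume_eq (by omega) h, h3, h4]
    exact ⟨normalizedVolume_le hn (h2.1 hk) hs, isODP hn (h2.1 hk) hs,
      normalizedVolume_odp hn (h2.1 hk) hs⟩
  · obtain ⟨R, _, _, _, _, ω, h, hk, hs, ho⟩ := exists_odp hn
    exact ⟨R, _, _, _, _, ω, h, hk, hs, (anODP_iff hn h.essFiniteType h.residue).2 ho⟩

end Vale.Agent.Results.P282.AAAnalytic
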